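import Vale.Agent.P121.Pointwise

/-!
Existence of a branch of stationary configurations through `(0, e, -e)`, by the inverse
function theorem, and the bi-Lipschitz character of its two non-central components.
-/

open scoped RealInnerProductSpace NNReal Topology
open Metric Set Filter

namespace Vale.Agent.P121

variable {F : Type*} [NormedAddCommGroup F] [InnerProductSpace ℝ F]

/-- The system whose zero set in the last two components is the stationary set. -/
noncomputable def system (e : F) (p : F × F × F) : F × F × F :=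
  (p.1,
   (40 : ℝ) • p.1 - force (p.1 - p.2.1) - force (p.1 - p.2.2),
   (40 : ℝ) • (p.2.2 + e) - (5 / 4 : ℝ) • e - force (p.2.2 - p.1) - force (p.2.2 - p.2.1))

section projections

variable (F)

/-- Coordinate projections of `F × F × F`. -/
noncomputable def proj1 : F × F × F →L[ℝ] F := ContinuousLinearMap.fst ℝ F (F × F)

/-- Second coordinate. -/
noncomputable def proj2 : F × F × F →L[ℝ] F :=
  (ContinuousLinearMap.fst ℝ F F).comp (ContinuousLinearMap.snd ℝ F (F × F))

/-- Third coordinate. -/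
noncomputable def proj3 : F × F × F →L[ℝ] F :=
  (ContinuousLinearMap.snd ℝ F F).comp (ContinuousLinearMap.snd ℝ F (F × F))

end projections

/-- The derivative of `system` at `(0, e, -e)`. -/
noncomputable def systemD (e : F) : F × F × F →L[ℝ] F × F × F :=
  (proj1 F).prod
    (((40 : ℝ) • proj1 F - (dForce (0 - e)).comp (proj1 F - proj2 F)
        - (dForce (0 - -e)).comp (proj1 F - proj3 F)).prod
     ((40 : ℝ) • proj3 F - (dForce (-e - 0)).comp (proj3 F - proj1 F)
        - (dForce (-e - e)).comp (proj3 F - proj2 F)))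

theorem system_base (e : F) (he : ‖e‖ = 1) : system e (0, e, -e) = 0 := by
  have h2 : ‖-e - e‖ = 2 := by
    rw [show -e - e = (-2 : ℝ) • e by module, norm_smul, he]; norm_num
  simp only [system, Prod.ext_iff, Prod.fst_zero, Prod.snd_zero, force, zero_sub, sub_zero,
    norm_neg, he, h2, neg_neg]
  refine ⟨trivial, ?_, ?_⟩ <;> norm_num <;> module

theorem system_hasStrictFDerivAt (e : F) (he : ‖e‖ = 1) :
    HasStrictFDerivAt (system e) (systemD e) (0, e, -e) := by
  have he0 : e ≠ 0 := by rintro rfl; simp at he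
  have h1 : HasStrictFDerivAt (fun p : F × F × F => p.1) (proj1 F) (0, e, -e) :=
    (proj1 F).hasStrictFDerivAt
  have h2 : HasStrictFDerivAt (fun p : F × F × F => p.2.1) (proj2 F) (0, e, -e) :=
    (proj2 F).hasStrictFDerivAt
  have h3 : HasStrictFDerivAt (fun p : F × F × F => p.2.2) (proj3 F) (0, e, -e) :=
    (proj3 F).hasStrictFDerivAt
  have n1 : (0 : F) - e ≠ 0 := by simpa using he0
  have n2 : (0 : F) - -e ≠ 0 := by simpa using he0
  have n3 : -e - (0 : F) ≠ 0 := by simpa using he0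
  have n4 : -e - e ≠ 0 := by
    rw [show -e - e = (-2 : ℝ) • e by module]; exact smul_ne_zero (by norm_num) he0
  have f1 := (hasStrictFDerivAt_force n1).comp (0, e, -e) (h1.sub h2)
  have f2 := (hasStrictFDerivAt_force n2).comp (0, e, -e) (h1.sub h3)
  have f3 := (hasStrictFDerivAt_force n3).comp (0, e, -e) (h3.sub h1)
  have f4 := (hasStrictFDerivAt_force n4).comp (0, e, -e) (h3.sub h2)
  exact h1.prodMk ((((h1.const_smul (40 : ℝ)).sub f1).sub f2).prodMk
    (((((h3.add_const e).const_smul (40 : ℝ)).sub_const _).sub f3).sub f4))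

/-- The two linearized equations, written out. -/
theorem systemD_apply (e : F) (he : ‖e‖ = 1) (a b c : F) :
    systemD e (a, b, c) =
      (a, (40 : ℝ) • a - ((a - b) - (3 * ⟪e, a - b⟫) • e) - ((a - c) - (3 * ⟪e, a - c⟫) • e),
        (40 : ℝ) • c - ((c - a) - (3 * ⟪e, c - a⟫) • e)
          - (1 / 8 : ℝ) • ((c - b) - (3 * ⟪e, c - b⟫) • e)) := by
  have h2 : ‖-e - e‖ = 2 := by
    rw [show -e - e = (-2 : ℝ) • e by module, norm_smul, he]; norm_num
  have h2' : ∀ w : F, ⟪-e - e, w⟫ = -2 * ⟪e, w⟫ := by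
    intro w; rw [inner_sub_left, inner_neg_left]; ring
  simp only [systemD, proj1, proj2, proj3, ContinuousLinearMap.prod_apply,
    ContinuousLinearMap.comp_apply, sub_apply, smul_apply, ContinuousLinearMap.coe_fst',
    ContinuousLinearMap.coe_snd', dForce_apply, zero_sub, sub_zero, neg_neg, norm_neg, he, h2,
    h2', inner_neg_left]
  refine Prod.ext rfl (Prod.ext ?_ ?_) <;> simp only <;> norm_num <;> module

/-- The linearized equations with one of the three unknowns frozen have only the zero solution. -/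
theorem systemD_ker (e : F) (he : ‖e‖ = 1) (a b c : F)
    (h0 : a = 0 ∨ b = 0 ∨ c = 0)
    (hE : (systemD e (a, b, c)).2 = 0) : a = 0 ∧ b = 0 ∧ c = 0 := by
  rw [systemD_apply e he] at hE
  simp only [Prod.ext_iff, Prod.fst_zero, Prod.snd_zero] at hE
  obtain ⟨hB, hC⟩ := hE
  have hee : ⟪e, e⟫ = (1 : ℝ) := by rw [real_inner_self_eq_norm_sq, he]; norm_num
  have eqB : ∀ k : F, (40 * ⟪k, a⟫ - (⟪k, a⟫ - ⟪k, b⟫ - 3 * (⟪e, a⟫ - ⟪e, b⟫) * ⟪k, e⟫)
      - (⟪k, a⟫ - ⟪k, c⟫ - 3 * (⟪e, a⟫ - ⟪e, c⟫) * ⟪k, e⟫)) = 0 := fun k => by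
    have := congrArg (fun w => ⟪k, w⟫) hB
    simpa [inner_sub_right, real_inner_smul_right] using this
  have eqC : ∀ k : F, (40 * ⟪k, c⟫ - (⟪k, c⟫ - ⟪k, a⟫ - 3 * (⟪e, c⟫ - ⟪e, a⟫) * ⟪k, e⟫)
      - (1 / 8) * (⟪k, c⟫ - ⟪k, b⟫ - 3 * (⟪e, c⟫ - ⟪e, b⟫) * ⟪k, e⟫)) = 0 := fun k => by
    have := congrArg (fun w => ⟪k, w⟫) hC
    simpa [inner_sub_right, real_inner_smul_right] using this
  have B0 := eqB e
  have C0 := eqC e
  rw [hee] at B0 C0
  have hz : ⟪e, a⟫ = 0 ∧ ⟪e, b⟫ = 0 ∧ ⟪e, c⟫ = 0 := by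
    rcases h0 with rfl | rfl | rfl <;> simp only [inner_zero_right] at B0 C0 <;>
      refine ⟨?_, ?_, ?_⟩ <;> (try simp only [inner_zero_right]) <;> linarith
  obtain ⟨za, zb, zc⟩ := hz
  simp only [za, zb, zc, sub_zero, mul_zero, zero_mul] at eqB eqC
  have key : ∀ k : F, ⟪k, a⟫ = 0 ∧ ⟪k, b⟫ = 0 ∧ ⟪k, c⟫ = 0 := by
    intro k
    have B1 := eqB k
    have C1 := eqC k
    rcases h0 with rfl | rfl | rfl <;> simp only [inner_zero_right] at B1 C1 <;>
      refine ⟨?_, ?_, ?_⟩ <;> (try simp only [inner_zero_right]) <;> linarith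
  exact ⟨inner_self_eq_zero.mp (key a).1, inner_self_eq_zero.mp (key b).2.1,
    inner_self_eq_zero.mp (key c).2.2⟩

section branch

variable [FiniteDimensional ℝ F]

theorem exists_antilipschitz_of_injective {f : F → F} {f' : F →L[ℝ] F} {a : F}
    (hf : HasStrictFDerivAt f f' a) (hinj : Function.Injective f') :
    ∃ s ∈ 𝓝 a, ∃ K : ℝ≥0, ∀ x ∈ s, ∀ x' ∈ s, dist x x' ≤ K * dist (f x) (f x') := by
  let L : F ≃L[ℝ] F :=
    (LinearEquiv.ofInjectiveEndo (f' : F →ₗ[ℝ] F) hinj).toContinuousLinearEquiv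
  have hL : (L : F →L[ℝ] F) = f' := ContinuousLinearMap.ext fun v => rfl
  obtain ⟨s, has, hso, hs⟩ :=
    (show HasStrictFDerivAt f (L : F →L[ℝ] F) a from hL ▸ hf).approximates_deriv_on_open_nhds
  have hanti := hs.antilipschitz (L.subsingleton_or_nnnorm_symm_pos.imp id fun h =>
    NNReal.half_lt_self (inv_pos.2 h).ne')
  exact ⟨s, hso.mem_nhds has, _, fun x hx x' hx' => hanti.le_mul_dist ⟨x, hx⟩ ⟨x', hx'⟩⟩

/-- The branch of stationary configurations through `(0, e, -e)`. -/
theorem exists_branch (e : F) (he : ‖e‖ = 1) :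
    ∃ (y z : F → F) (K : ℝ≥0), y 0 = e ∧ z 0 = -e ∧ ∀ᶠ r in 𝓝[>] (0 : ℝ),
      ContinuousOn y (closedBall 0 r) ∧ ContinuousOn z (closedBall 0 r) ∧
      ∀ x ∈ closedBall (0 : F) r, Stationary e x (y x) (z x) ∧
        ∀ x' ∈ closedBall (0 : F) r,
          dist x x' ≤ K * dist (y x) (y x') ∧ dist x x' ≤ K * dist (z x) (z x') := by
  have hinj : Function.Injective (systemD e) := by
    refine (injective_iff_map_eq_zero _).mpr fun ⟨a, b, c⟩ h => ?_
    have ha : a = 0 := by
      have := congrArg Prod.fst h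
      rwa [systemD_apply e he] at this
    obtain ⟨h1, h2, h3⟩ := systemD_ker e he a b c (Or.inl ha) (by rw [h]; rfl)
    simp [h1, h2, h3]
  let L : (F × F × F) ≃L[ℝ] (F × F × F) :=
    (LinearEquiv.ofInjectiveEndo (systemD e : (F × F × F) →ₗ[ℝ] _) hinj).toContinuousLinearEquiv
  have hL : (L : (F × F × F) →L[ℝ] (F × F × F)) = systemD e :=
    ContinuousLinearMap.ext fun v => rfl
  have hT : HasStrictFDerivAt (system e) (L : (F × F × F) →L[ℝ] (F × F × F)) (0, e, -e) :=
    hL ▸ system_hasStrictFDerivAt e he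
  have hb := system_base e he
  let g := hT.localInverse (system e) L (0, e, -e)
  have hg0 : g 0 = (0, e, -e) := by
    have := hT.localInverse_apply_image
    rwa [hb] at this
  let ι : F →L[ℝ] F × F × F := ContinuousLinearMap.inl ℝ F (F × F)
  have hgd : HasStrictFDerivAt (fun x => g (ι x))
      ((L.symm : (F × F × F) →L[ℝ] (F × F × F)).comp ι) 0 := by
    have hgl := hT.to_localInverse
    rw [hb] at hgl
    have hι0 : ι (0 : F) = 0 := map_zero ι
    exact (hι0.symm ▸ hgl).comp (0 : F) ι.hasStrictFDerivAt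
  have hL2 : ∀ v, (systemD e (L.symm (ι v))).2 = 0 ∧ (systemD e (L.symm (ι v))).1 = v := by
    intro v
    have : systemD e (L.symm (ι v)) = ι v := by
      rw [← hL]; exact L.apply_symm_apply _
    rw [this]
    exact ⟨rfl, rfl⟩
  have hy : HasStrictFDerivAt (fun x => (g (ι x)).2.1)
      ((proj2 F).comp ((L.symm : (F × F × F) →L[ℝ] (F × F × F)).comp ι)) 0 :=
    (proj2 F).hasStrictFDerivAt.comp (0 : F) hgd
  have hz : HasStrictFDerivAt (fun x => (g (ι x)).2.2)
      ((proj3 F).comp ((L.symm : (F × F × F) →L[ℝ] (F × F × F)).comp ι)) 0 :=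
    (proj3 F).hasStrictFDerivAt.comp (0 : F) hgd
  have hyi : Function.Injective
      ((proj2 F).comp ((L.symm : (F × F × F) →L[ℝ] (F × F × F)).comp ι)) := by
    refine (injective_iff_map_eq_zero _).mpr fun v hv => ?_
    obtain ⟨h2, h1⟩ := hL2 v
    have hh := systemD_ker e he _ _ _ (Or.inr (Or.inl hv)) h2
    rw [← h1, systemD_apply e he]
    exact hh.1
  have hzi : Function.Injective
      ((proj3 F).comp ((L.symm : (F × F × F) →L[ℝ] (F × F × F)).comp ι)) := by
    refine (injective_iff_map_eq_zero _).mpr fun v hv => ?_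
    obtain ⟨h2, h1⟩ := hL2 v
    have hh := systemD_ker e he _ _ _ (Or.inr (Or.inr hv)) h2
    rw [← h1, systemD_apply e he]
    exact hh.1
  obtain ⟨s1, hs1, K1, hK1⟩ := exists_antilipschitz_of_injective hy hyi
  obtain ⟨s2, hs2, K2, hK2⟩ := exists_antilipschitz_of_injective hz hzi
  have hstat : ∀ᶠ x in 𝓝 (0 : F), Stationary e x (g (ι x)).2.1 (g (ι x)).2.2 := by
    have h := hT.eventually_right_inverse
    rw [hb] at h
    have ht : Tendsto ι (𝓝 0) (𝓝 0) := by simpa using ι.continuous.tendsto (0 : F)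
    filter_upwards [ht.eventually h] with x hx
    change system e (g (ι x)) = ι x at hx
    have e1 : (g (ι x)).1 = x := congrArg Prod.fst hx
    have e2 := congrArg (fun p => p.2.1) hx
    have e3 := congrArg (fun p => p.2.2) hx
    refine ⟨?_, ?_⟩
    · simp only [system, e1] at e2
      exact e2
    · simp only [system, e1] at e3
      exact e3
  have hcont : ∀ᶠ x in 𝓝 (0 : F), ContinuousAt (fun x => g (ι x)) x := by
    have hopen := (hT.toOpenPartialHomeomorph (system e)).open_target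
    have hmem := hT.image_mem_toOpenPartialHomeomorph_target
    rw [hb] at hmem
    have ht : Tendsto ι (𝓝 0) (𝓝 0) := by simpa using ι.continuous.tendsto (0 : F)
    filter_upwards [ht.eventually (hopen.mem_nhds hmem)] with x hx
    exact ContinuousAt.comp
      ((hT.toOpenPartialHomeomorph (system e)).continuousAt_symm hx) ι.continuous.continuousAt
  refine ⟨fun x => (g (ι x)).2.1, fun x => (g (ι x)).2.2, max K1 K2, ?_, ?_, ?_⟩
  · simp [hg0]
  · simp [hg0]
  · obtain ⟨ρ, hρ, hball⟩ := nhds_basis_closedBall.mem_iff.mp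
      (inter_mem (inter_mem hs1 hs2) (hstat.and hcont))
    filter_upwards [nhdsWithin_le_nhds (Iic_mem_nhds hρ)] with r hr
    have hsub : closedBall (0 : F) r ⊆ closedBall 0 ρ := closedBall_subset_closedBall hr
    have hcg : ∀ x ∈ closedBall (0 : F) r, ContinuousAt (fun x => g (ι x)) x :=
      fun x hx => (hball (hsub hx)).2.2
    refine ⟨fun x hx => ((hcg x hx).snd.fst).continuousWithinAt,
      fun x hx => ((hcg x hx).snd.snd).continuousWithinAt, fun x hx => ?_⟩
    refine ⟨(hball (hsub hx)).2.1, fun x' hx' => ⟨?_, ?_⟩⟩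
    · refine (hK1 x (hball (hsub hx)).1.1 x' (hball (hsub hx')).1.1).trans ?_
      gcongr
      exact le_max_left _ _
    · refine (hK2 x (hball (hsub hx)).1.2 x' (hball (hsub hx')).1.2).trans ?_
      gcongr
      exact le_max_right _ _

end branch

end Vale.Agent.P121
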