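import Mathlib

/-!
Definitions for the three-marginal Coulomb transport question on Euclidean three-space.
-/

open MeasureTheory
open scoped ENNReal

namespace Vale.Agent.P121

/-- Euclidean three-space. -/
abbrev E3 := EuclideanSpace ℝ (Fin 3)

/-- The Coulomb cost; a pair of coinciding points contributes `∞`. -/
noncomputable def coulombCost (p : E3 × E3 × E3) : ℝ≥0∞ :=
  (edist p.1 p.2.1)⁻¹ + (edist p.1 p.2.2)⁻¹ + (edist p.2.1 p.2.2)⁻¹

/-- The couplings whose three coordinate marginals all equal `μ`. -/
def couplings (μ : Measure E3) : Set (Measure (E3 × E3 × E3)) :=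
  {π | π.map (fun p => p.1) = μ ∧ π.map (fun p => p.2.1) = μ ∧ π.map (fun p => p.2.2) = μ}

/-- The Kantorovich value. -/
noncomputable def kantorovichValue (μ : Measure E3) : ℝ≥0∞ :=
  ⨅ π ∈ couplings μ, ∫⁻ p, coulombCost p ∂π

end Vale.Agent.P121
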