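import Vale.Agent.P121.Potential

/-!
The marginal, an optimal plan of it, and the absence of an optimal plan induced by maps.
-/

open scoped ENNReal NNReal
open Metric Set MeasureTheory

namespace Vale.Agent.P121

namespace Clusters

variable (S : Clusters)

/-- Lebesgue probability on the central ball. -/
noncomputable def nu : Measure E3 := (volume S.A)⁻¹ • volume.restrict S.A

/-- Weights of the clusters. -/
noncomputable def weight : Lab → ℝ≥0∞
  | none => 2 * 6⁻¹
  | some _ => 6⁻¹

/-- The marginal. -/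
noncomputable def mu : Measure E3 := ∑ k : Lab, weight k • S.nu.map (S.point k)

/-- The symmetrized plan on the two branches. -/
noncomputable def plan : Measure (E3 × E3 × E3) :=
  (6 : ℝ≥0∞)⁻¹ • ∑ i : Fin 2, (S.nu.map (fun a => (a, S.y i a, S.z i a))
    + S.nu.map (fun a => (S.y i a, S.z i a, a)) + S.nu.map (fun a => (S.z i a, a, S.y i a)))

theorem volume_A_pos : 0 < volume S.A := measure_closedBall_pos volume _ S.r_pos

theorem volume_A_lt_top : volume S.A < ⊤ := measure_closedBall_lt_top

theorem nu_prob : IsProbabilityMeasure S.nu := by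
  refine ⟨?_⟩
  simp [nu, ENNReal.inv_mul_cancel S.volume_A_pos.ne' S.volume_A_lt_top.ne]

theorem ae_nu_mem : ∀ᵐ a ∂S.nu, a ∈ S.A :=
  Measure.ae_smul_measure (ae_restrict_mem S.measurableSet_A) _

theorem mu_apply {X : Set E3} (hX : MeasurableSet X) :
    S.mu X = ∑ k : Lab, weight k * S.nu (S.point k ⁻¹' X) := by
  simp [mu, Measure.map_apply (S.point_meas _) hX]

theorem sum_lab {M : Type} [AddCommMonoid M] (f : Lab → M) :
    ∑ k, f k = f none + ((f (some (0, true)) + f (some (0, false)))
      + (f (some (1, true)) + f (some (1, false)))) := by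
  simp [Fintype.sum_option, Fintype.sum_prod_type, Fin.sum_univ_two]

theorem mu_prob : IsProbabilityMeasure S.mu := by
  have := S.nu_prob
  refine ⟨?_⟩
  rw [S.mu_apply MeasurableSet.univ, sum_lab]
  simp only [preimage_univ, measure_univ, mul_one, weight]
  have h : (6 : ℝ≥0∞) * 6⁻¹ = 1 := ENNReal.mul_inv_cancel (by norm_num) (by norm_num)
  rw [← h]; ring

/-- Absolute continuity, with a bound on the density. -/
theorem mu_le_volume : ∃ M : ℝ≥0∞, M ≠ ⊤ ∧ S.mu ≤ M • (volume : Measure E3) := by
  set L : ℝ≥0∞ := ((max 1 S.K : ℝ≥0) : ℝ≥0∞) ^ (Module.finrank ℝ E3 : ℝ) with hL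
  refine ⟨∑ k : Lab, weight k * ((volume S.A)⁻¹ * L), ?_, Measure.le_iff.mpr fun X hX => ?_⟩
  · refine (ENNReal.sum_lt_top.mpr fun k _ => ENNReal.mul_lt_top ?_ (ENNReal.mul_lt_top ?_ ?_)).ne
    · rcases k with _ | k <;> simp [weight, ENNReal.mul_lt_top]
    · simp [S.volume_A_pos]
    · exact ENNReal.rpow_lt_top_of_nonneg (by positivity) ENNReal.coe_ne_top
  rw [S.mu_apply hX, Measure.smul_apply, smul_eq_mul, Finset.sum_mul]
  refine Finset.sum_le_sum fun k _ => ?_
  rw [mul_assoc, mul_assoc]
  gcongr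
  simp only [nu, Measure.smul_apply, smul_eq_mul, Measure.restrict_apply' S.measurableSet_A]
  gcongr
  -- the preimage under an antilipschitz map has comparable Hausdorff measure
  have hd : (0 : ℝ) ≤ (Module.finrank ℝ E3 : ℝ) := by positivity
  have hanti : AntilipschitzWith (max 1 S.K) (S.A.domRestrict (S.point k)) :=
    AntilipschitzWith.of_le_mul_dist fun a b => S.point_anti k a.2 b.2
  have himg : S.point k ⁻¹' X ∩ S.A = Subtype.val '' (S.A.domRestrict (S.point k) ⁻¹' X) := by
    ext a
    simp [and_comm]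
  have hH : Measure.hausdorffMeasure (Module.finrank ℝ E3 : ℝ) (S.point k ⁻¹' X ∩ S.A)
      ≤ L * Measure.hausdorffMeasure (Module.finrank ℝ E3 : ℝ) X := by
    rw [himg, isometry_subtype_coe.hausdorffMeasure_image (Or.inl hd)]
    exact hanti.hausdorffMeasure_preimage_le hd X
  rw [Measure.isAddLeftInvariant_eq_smul (volume : Measure E3)
    (Measure.hausdorffMeasure (Module.finrank ℝ E3 : ℝ))]
  simp only [Measure.smul_apply, ENNReal.smul_def, smul_eq_mul]
  calc _ ≤ _ * (L * Measure.hausdorffMeasure (Module.finrank ℝ E3 : ℝ) X) := mul_le_mul_right hH _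
    _ = _ := by ring

theorem mu_ac : S.mu ≪ (volume : Measure E3) := by
  obtain ⟨M, -, h⟩ := S.mu_le_volume
  exact Measure.absolutelyContinuous_of_le_smul h

theorem measurableSet_support : MeasurableSet S.support :=
  MeasurableSet.iUnion S.measurableSet_region

theorem mu_support : S.mu S.supportᶜ = 0 := by
  rw [S.mu_apply S.measurableSet_support.compl]
  refine Finset.sum_eq_zero fun k _ => mul_eq_zero_of_right _ ?_
  refine measure_eq_zero_iff_ae_notMem.mpr ?_
  filter_upwards [S.ae_nu_mem] with a ha h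
  exact h (mem_iUnion.mpr ⟨k, a, ha, rfl⟩)

theorem isCompact_support : IsCompact S.support :=
  isCompact_iUnion fun k =>
    (isCompact_closedBall (0 : E3) S.r).image_of_continuousOn (S.point_cont k)

/-- The mass of a subset of a cluster. -/
theorem mu_piece (k : Lab) {W : Set E3} (hW : MeasurableSet W) :
    S.mu (S.region k ∩ S.back k ⁻¹' W) = weight k * S.nu W := by
  rw [S.mu_apply ((S.measurableSet_region k).inter (S.back_meas k hW)), Finset.sum_eq_single k]
  · congr 1
    refine measure_congr ?_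
    rw [Filter.eventuallyEq_set]
    filter_upwards [S.ae_nu_mem] with a ha
    simp [S.mem_region_iff ha, S.back_point k ha]
  · intro l _ hl
    refine mul_eq_zero_of_right _ (measure_eq_zero_iff_ae_notMem.mpr ?_)
    filter_upwards [S.ae_nu_mem] with a ha h
    exact hl ((S.mem_region_iff ha).mp h.1)
  · simp

theorem mu_sub_A {W : Set E3} (hW : MeasurableSet W) (hA : W ⊆ S.A) :
    S.mu W = 2 * 6⁻¹ * S.nu W := by
  have : S.region none ∩ S.back none ⁻¹' W = W := by
    ext x
    constructor
    · rintro ⟨⟨a, ha, rfl⟩, h⟩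
      have hb := S.back_point none ha
      simp only [point, id] at hb h ⊢
      rwa [mem_preimage, hb] at h
    · intro hx
      have hb := S.back_point none (hA hx)
      simp only [point, id] at hb
      exact ⟨⟨x, hA hx, rfl⟩, by simpa [hb] using hx⟩
  have h := S.mu_piece none hW
  rwa [this] at h

theorem plan_mem : S.plan ∈ couplings S.mu := by
  have m1 : ∀ i, Measurable (fun a => (a, S.y i a, S.z i a)) := fun i =>
    measurable_id.prodMk ((S.y_meas i).prodMk (S.z_meas i))
  have m2 : ∀ i, Measurable (fun a => (S.y i a, S.z i a, a)) := fun i =>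
    (S.y_meas i).prodMk ((S.z_meas i).prodMk measurable_id)
  have m3 : ∀ i, Measurable (fun a => (S.z i a, a, S.y i a)) := fun i =>
    (S.z_meas i).prodMk (measurable_id.prodMk (S.y_meas i))
  refine ⟨?_, ?_, ?_⟩ <;>
  · refine Measure.ext fun X hX => ?_
    have x1 : MeasurableSet ((fun p : E3 × E3 × E3 => p.1) ⁻¹' X) := measurable_fst hX
    have x2 : MeasurableSet ((fun p : E3 × E3 × E3 => p.2.1) ⁻¹' X) :=
      (measurable_fst.comp measurable_snd) hX
    have x3 : MeasurableSet ((fun p : E3 × E3 × E3 => p.2.2) ⁻¹' X) :=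
      (measurable_snd.comp measurable_snd) hX
    rw [Measure.map_apply (by fun_prop) hX, S.mu_apply hX, sum_lab]
    simp [plan, Fin.sum_univ_two, Measure.map_apply, m1, m2, m3, weight, point,
      x1, x2, x3, Set.preimage_preimage]
    ring

theorem lintegral_vsum {π : Measure (E3 × E3 × E3)} (h : π ∈ couplings S.mu) :
    ∫⁻ p, S.vpot p.1 + S.vpot p.2.1 + S.vpot p.2.2 ∂π = 3 * ∫⁻ x, S.vpot x ∂S.mu := by
  have h1 := S.vpot_meas.comp (measurable_fst : Measurable (fun p : E3 × E3 × E3 => p.1))
  have h2 := S.vpot_meas.comp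
    (measurable_fst.comp measurable_snd : Measurable (fun p : E3 × E3 × E3 => p.2.1))
  have h3 := S.vpot_meas.comp
    (measurable_snd.comp measurable_snd : Measurable (fun p : E3 × E3 × E3 => p.2.2))
  have e1 : ∫⁻ p, S.vpot p.1 ∂π = ∫⁻ x, S.vpot x ∂S.mu := by
    conv_rhs => rw [← h.1, lintegral_map S.vpot_meas (by fun_prop)]
  have e2 : ∫⁻ p, S.vpot p.2.1 ∂π = ∫⁻ x, S.vpot x ∂S.mu := by
    conv_rhs => rw [← h.2.1, lintegral_map S.vpot_meas (by fun_prop)]
  have e3 : ∫⁻ p, S.vpot p.2.2 ∂π = ∫⁻ x, S.vpot x ∂S.mu := by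
    conv_rhs => rw [← h.2.2, lintegral_map S.vpot_meas (by fun_prop)]
  rw [lintegral_add_left (by exact h1.add h2), lintegral_add_left (by exact h1), e1, e2, e3]
  ring

theorem lintegral_vpot_lt_top : ∫⁻ x, S.vpot x ∂S.mu < ⊤ := by
  have := S.mu_prob
  have hb : ∀ x, S.vpot x ≤ ∑ _k : Lab, (13 : ℝ≥0∞) := by
    intro x
    refine Finset.sum_le_sum fun k _ => ?_
    by_cases hq : x ∈ S.region k
    swap
    · rw [indicator_of_notMem hq]; exact zero_le
    rw [indicator_of_mem hq]
    obtain ⟨a, ha, rfl⟩ := hq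
    rw [S.back_point k ha, show (13 : ℝ≥0∞) = ENNReal.ofReal 13 by simp]
    refine ENNReal.ofReal_le_ofReal ?_
    have := S.pot_le k ha
    rcases k with _ | k <;> simp only [top] at this <;> push_cast at this <;> linarith
  refine (lintegral_mono hb).trans_lt ?_
  simp [lintegral_const, ENNReal.mul_lt_top]

theorem lintegral_plan :
    ∫⁻ p, coulombCost p + 30 ∂S.plan = 3 * ∫⁻ x, S.vpot x ∂S.mu := by
  rw [← S.lintegral_vsum S.plan_mem]
  have hc : Measurable (fun p => coulombCost p + 30) := measurable_coulombCost.add_const _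
  have hv : Measurable (fun p : E3 × E3 × E3 => S.vpot p.1 + S.vpot p.2.1 + S.vpot p.2.2) := by
    have := S.vpot_meas
    fun_prop
  have key : ∀ g : E3 → E3 × E3 × E3, Measurable g → (∀ a ∈ S.A, S.Contact (g a)) →
      ∫⁻ p, coulombCost p + 30 ∂(S.nu.map g)
        = ∫⁻ p, S.vpot p.1 + S.vpot p.2.1 + S.vpot p.2.2 ∂(S.nu.map g) := by
    intro g hg hG
    rw [lintegral_map hc hg, lintegral_map hv hg]
    refine lintegral_congr_ae ?_
    filter_upwards [S.ae_nu_mem] with a ha
    exact (S.vsum_contact (hG a ha)).symm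
  simp only [plan, lintegral_smul_measure, lintegral_add_measure, Fin.sum_univ_two]
  have k1 := fun i => key _ (measurable_id.prodMk ((S.y_meas i).prodMk (S.z_meas i)))
    (fun a ha => ⟨i, a, ha, by simp [orderings]⟩)
  have k2 := fun i => key _ ((S.y_meas i).prodMk ((S.z_meas i).prodMk measurable_id))
    (fun a ha => ⟨i, a, ha, by simp [orderings]⟩)
  have k3 := fun i => key _ ((S.z_meas i).prodMk (measurable_id.prodMk (S.y_meas i)))
    (fun a ha => ⟨i, a, ha, by simp [orderings]⟩)
  simp only [id] at k1 k2 k3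
  simp only [k1, k2, k3]

theorem plan_cost_lt_top : ∫⁻ p, coulombCost p ∂S.plan < ⊤ := by
  refine (lintegral_mono fun p => le_self_add (b := (30 : ℝ≥0∞))).trans_lt ?_
  rw [S.lintegral_plan]
  exact ENNReal.mul_lt_top (by simp) S.lintegral_vpot_lt_top

theorem value_le : kantorovichValue S.mu ≤ ∫⁻ p, coulombCost p ∂S.plan :=
  iInf₂_le _ S.plan_mem

/-- Counting identity on a contact triple. -/
theorem contact_count {W : Set E3} (hA : W ⊆ S.A) {p q s : E3} (h : S.Contact (p, q, s)) :
    let U := S.region (some (0, true)) ∩ S.back (some (0, true)) ⁻¹' W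
    let V := S.region (some (0, false)) ∩ S.back (some (0, false)) ⁻¹' W
    U.indicator (1 : E3 → ℝ≥0∞) p + U.indicator 1 q + U.indicator 1 s
      = U.indicator 1 p + V.indicator 1 p
        + {x | x ∈ W ∧ (q ∈ S.region (some (0, true)) ∨ s ∈ S.region (some (0, true)))}.indicator
            1 p := by
  intro U V
  obtain ⟨i, a, ha, h⟩ := h
  have r0 : ∀ {k : Lab}, k ≠ none → S.point k a ∉ W := fun {k} hk hm =>
    hk ((S.mem_region_iff (l := none) ha).mp ⟨_, hA hm, rfl⟩)
  have yW : S.y i a ∉ W := r0 (k := some (i, true)) (by simp)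
  have zW : S.z i a ∉ W := r0 (k := some (i, false)) (by simp)
  have aR : a ∉ S.region (some (0, true)) := fun hm => by
    simpa using (S.mem_region_iff (k := none) ha).mp hm
  have aV : a ∉ V := fun hm => by
    simpa using (S.mem_region_iff (k := none) ha).mp hm.1
  have zR : S.z i a ∉ S.region (some (0, true)) := fun hm => by
    simpa using (S.mem_region_iff (k := some (i, false)) ha).mp hm
  have yV : S.y i a ∉ V := fun hm => by
    simpa using (S.mem_region_iff (k := some (i, true)) ha).mp hm.1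
  have yR : S.y i a ∈ S.region (some (0, true)) ↔ i = 0 := by
    have h := S.mem_region_iff (k := some (i, true)) (l := some (0, true)) ha
    simp only [point] at h
    simpa using h
  have yU : S.y i a ∈ U ↔ i = 0 ∧ a ∈ W := by
    constructor
    · intro hm
      obtain rfl := yR.mp hm.1
      have hb := S.back_point (some (0, true)) ha
      have := hm.2
      rw [mem_preimage] at this
      simp only [point] at hb
      exact ⟨rfl, hb ▸ this⟩
    · rintro ⟨rfl, haW⟩
      refine ⟨yR.mpr rfl, ?_⟩
      have hb := S.back_point (some (0, true)) ha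
      simp only [point] at hb
      rw [mem_preimage, hb]; exact haW
  have zV : S.z i a ∈ V ↔ i = 0 ∧ a ∈ W := by
    constructor
    · intro hm
      have hi := (S.mem_region_iff (k := some (i, false)) ha).mp hm.1
      simp at hi
      subst hi
      have hb := S.back_point (some (0, false)) ha
      have := hm.2
      rw [mem_preimage] at this
      simp only [point] at hb
      exact ⟨rfl, hb ▸ this⟩
    · rintro ⟨rfl, haW⟩
      have hb := S.back_point (some (0, false)) ha
      simp only [point] at hb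
      refine ⟨⟨a, ha, rfl⟩, ?_⟩
      rw [mem_preimage, hb]; exact haW
  have aU : a ∉ U := fun hm => aR hm.1
  have zU : S.z i a ∉ U := fun hm => zR hm.1
  simp only [orderings, List.mem_cons, List.not_mem_nil, or_false, Prod.mk.injEq] at h
  classical
  rcases h with ⟨h1, h2, h3⟩ | ⟨h1, h2, h3⟩ | ⟨h1, h2, h3⟩ | ⟨h1, h2, h3⟩ | ⟨h1, h2, h3⟩ |
      ⟨h1, h2, h3⟩ <;>
    rcases eq_or_ne i 0 with rfl | hi <;> by_cases haW : a ∈ W <;>
    simp [Set.indicator, *]

/-- No pair of measure-preserving maps is optimal. -/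
theorem no_monge (T₂ T₃ : E3 → E3) (h2m : Measurable T₂) (h3m : Measurable T₃)
    (h2 : S.mu.map T₂ = S.mu) (h3 : S.mu.map T₃ = S.mu)
    (hopt : ∫⁻ x, coulombCost (x, T₂ x, T₃ x) ∂S.mu = kantorovichValue S.mu) : False := by
  have := S.mu_prob
  have := S.nu_prob
  let g : E3 → E3 × E3 × E3 := fun x => (x, T₂ x, T₃ x)
  have hg : Measurable g := measurable_id.prodMk (h2m.prodMk h3m)
  have hsupp : ∀ᵐ x ∂S.mu, x ∈ S.support ∧ T₂ x ∈ S.support ∧ T₃ x ∈ S.support := by
    have h0 : ∀ᵐ x ∂S.mu, x ∈ S.support := ae_iff.mpr S.mu_support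
    have a2 : ∀ᵐ x ∂S.mu, T₂ x ∈ S.support :=
      ae_of_ae_map (p := (· ∈ S.support)) h2m.aemeasurable (by rw [h2]; exact h0)
    have a3 : ∀ᵐ x ∂S.mu, T₃ x ∈ S.support :=
      ae_of_ae_map (p := (· ∈ S.support)) h3m.aemeasurable (by rw [h3]; exact h0)
    filter_upwards [h0, a2, a3] with x a b c using ⟨a, b, c⟩
  let F : E3 → ℝ≥0∞ := fun x => S.vpot x + S.vpot (T₂ x) + S.vpot (T₃ x)
  let G : E3 → ℝ≥0∞ := fun x => coulombCost (g x) + 30
  have hle : F ≤ᵐ[S.mu] G := by
    filter_upwards [hsupp] with x hx using (S.vsum_le hx.1 hx.2.1 hx.2.2).1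
  have hmem : S.mu.map g ∈ couplings S.mu := by
    refine ⟨?_, ?_, ?_⟩
    · rw [Measure.map_map (by fun_prop) hg]; exact Measure.map_id
    · rw [Measure.map_map (by fun_prop) hg]; exact h2
    · rw [Measure.map_map (by fun_prop) hg]; exact h3
  have hF : ∫⁻ x, F x ∂S.mu = 3 * ∫⁻ x, S.vpot x ∂S.mu := by
    have hv : Measurable (fun p : E3 × E3 × E3 => S.vpot p.1 + S.vpot p.2.1 + S.vpot p.2.2) := by
      have := S.vpot_meas
      fun_prop
    rw [← S.lintegral_vsum hmem, lintegral_map hv hg]
  have hGle : ∫⁻ x, G x ∂S.mu ≤ ∫⁻ x, F x ∂S.mu := by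
    rw [hF, ← S.lintegral_plan, lintegral_add_right _ measurable_const,
      lintegral_add_right _ measurable_const, lintegral_const, lintegral_const]
    have hp : S.plan univ = 1 := by
      have := congrArg (fun m : Measure E3 => m univ) S.plan_mem.1
      simpa [Measure.map_apply (measurable_fst : Measurable fun p : E3 × E3 × E3 => p.1)
        MeasurableSet.univ] using this
    rw [measure_univ, hp, hopt]
    gcongr
    exact S.value_le
  have hFfin : ∫⁻ x, F x ∂S.mu ≠ ⊤ := by
    rw [hF]
    exact (ENNReal.mul_lt_top (by simp) S.lintegral_vpot_lt_top).ne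
  have hGm : AEMeasurable G S.mu :=
    ((measurable_coulombCost.comp hg).add_const _).aemeasurable
  have heq := ae_eq_of_ae_le_of_lintegral_le hle hFfin hGm hGle
  have hcon : ∀ᵐ x ∂S.mu, S.Contact (g x) := by
    filter_upwards [hsupp, heq] with x hx he using (S.vsum_le hx.1 hx.2.1 hx.2.2).2 he
  -- the counting argument
  let R := S.region (some (0, true))
  let D := S.A ∩ (T₂ ⁻¹' R ∪ T₃ ⁻¹' R)
  have hR : MeasurableSet R := S.measurableSet_region _
  have hD : MeasurableSet D := S.measurableSet_A.inter ((h2m hR).union (h3m hR))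
  have count : ∀ W, MeasurableSet W → W ⊆ S.A → S.mu (W ∩ D) = 6⁻¹ * S.nu W := by
    intro W hW hA
    let U := R ∩ S.back (some (0, true)) ⁻¹' W
    let V := S.region (some (0, false)) ∩ S.back (some (0, false)) ⁻¹' W
    have hU : MeasurableSet U := hR.inter (S.back_meas _ hW)
    have hV : MeasurableSet V := (S.measurableSet_region _).inter (S.back_meas _ hW)
    have hWD : MeasurableSet (W ∩ D) := hW.inter hD
    have hae : ∀ᵐ x ∂S.mu, U.indicator (1 : E3 → ℝ≥0∞) x + (T₂ ⁻¹' U).indicator 1 x
        + (T₃ ⁻¹' U).indicator 1 x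
          = U.indicator 1 x + V.indicator 1 x + (W ∩ D).indicator 1 x := by
      filter_upwards [hcon] with x hx
      classical
      have p2 : (T₂ ⁻¹' U).indicator (1 : E3 → ℝ≥0∞) x = U.indicator 1 (T₂ x) := by
        simp [Set.indicator]
      have p3 : (T₃ ⁻¹' U).indicator (1 : E3 → ℝ≥0∞) x = U.indicator 1 (T₃ x) := by
        simp [Set.indicator]
      have p4 : (W ∩ D).indicator (1 : E3 → ℝ≥0∞) x
          = {u | u ∈ W ∧ (T₂ x ∈ R ∨ T₃ x ∈ R)}.indicator 1 x := by
        by_cases hw : x ∈ W
        · simp [Set.indicator, D, hw, hA hw]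
        · simp [Set.indicator, hw]
      rw [p2, p3, p4]
      exact S.contact_count hA hx
    have hint := lintegral_congr_ae hae
    have m2 : S.mu (T₂ ⁻¹' U) = S.mu U := by rw [← Measure.map_apply h2m hU, h2]
    have m3 : S.mu (T₃ ⁻¹' U) = S.mu U := by rw [← Measure.map_apply h3m hU, h3]
    rw [lintegral_add_left (by fun_prop (disch := first | exact hU | exact h2m hU)),
      lintegral_add_left (by fun_prop (disch := exact hU)),
      lintegral_add_left (by fun_prop (disch := first | exact hU | exact hV)),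
      lintegral_add_left (by fun_prop (disch := exact hU)),
      lintegral_indicator_one hU, lintegral_indicator_one (h2m hU),
      lintegral_indicator_one (h3m hU), lintegral_indicator_one hV,
      lintegral_indicator_one hWD, m2, m3] at hint
    have eU : S.mu U = 6⁻¹ * S.nu W := S.mu_piece _ hW
    have eV : S.mu V = 6⁻¹ * S.nu W := S.mu_piece _ hW
    rw [eU, eV] at hint
    refine ((ENNReal.add_right_inj (ENNReal.add_ne_top.mpr ⟨?_, ?_⟩)).mp hint).symm <;>
      exact ENNReal.mul_ne_top (by simp) (measure_ne_top _ _)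
  have e1 := count S.A S.measurableSet_A subset_rfl
  have e2 := count D hD inter_subset_left
  rw [inter_eq_right.mpr (inter_subset_left : D ⊆ S.A)] at e1
  rw [inter_self] at e2
  have eA : S.nu S.A = 1 := by
    rw [← measure_univ (μ := S.nu)]
    exact measure_congr (Filter.eventuallyEq_univ.mpr S.ae_nu_mem)
  rw [eA, mul_one] at e1
  have e3 := S.mu_sub_A hD inter_subset_left
  rw [e2] at e3
  have hx : S.nu D = 0 := by
    have hfin : 6⁻¹ * S.nu D ≠ ⊤ := ENNReal.mul_ne_top (by simp) (measure_ne_top _ _)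
    rw [mul_assoc, two_mul] at e3
    have : 6⁻¹ * S.nu D = 0 := by
      have := (ENNReal.add_right_inj hfin).mp ((add_zero _).trans e3)
      exact this.symm
    simpa using this
  rw [e2, hx, mul_zero] at e1
  exact absurd e1.symm (by simp)

end Clusters

end Vale.Agent.P121
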