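import Vale.Agent.P121.Defs

/-!
The quantitative tangent bound for the Coulomb pair potential and the resulting
global minimality of stationary configurations against deep quadratic potentials.
-/

open scoped RealInnerProductSpace

namespace Vale.Agent.P121

variable {F : Type*} [NormedAddCommGroup F] [InnerProductSpace ℝ F]

/-- The Coulomb force. -/
noncomputable def force (v : F) : F := (‖v‖ ^ 3)⁻¹ • v

/-- The derivative of the Coulomb force. -/
noncomputable def dForce (v : F) : F →L[ℝ] F :=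
  ((‖v‖ ^ 3)⁻¹ : ℝ) • ContinuousLinearMap.id ℝ F
    + ((-3 : ℝ) * (‖v‖ ^ 5)⁻¹) • (innerSL ℝ v).smulRight v

theorem dForce_apply (v h : F) :
    dForce v h = (‖v‖ ^ 3)⁻¹ • h + ((-3 : ℝ) * (‖v‖ ^ 5)⁻¹ * ⟪v, h⟫) • v := by
  simp [dForce, smul_smul]

theorem hasStrictFDerivAt_force {v : F} (hv : v ≠ 0) :
    HasStrictFDerivAt force (dForce v) v := by
  have hn : ‖v‖ ≠ 0 := norm_ne_zero_iff.mpr hv
  have h1 : HasStrictFDerivAt (fun w : F => ‖w‖ ^ 2) ((2 : ℕ) • innerSL ℝ v) v :=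
    hasStrictFDerivAt_norm_sq v
  have h2 := h1.sqrt (by positivity)
  have h3 : HasStrictFDerivAt (fun w : F => ‖w‖)
      ((1 / (2 * Real.sqrt (‖v‖ ^ 2))) • ((2 : ℕ) • innerSL ℝ v)) v := by
    simpa [Real.sqrt_sq (norm_nonneg _)] using h2
  have h4 : HasStrictFDerivAt (fun w : F => ‖w‖ ^ 3)
      ((3 * ‖v‖ ^ 2) • ((1 / (2 * Real.sqrt (‖v‖ ^ 2))) • ((2 : ℕ) • innerSL ℝ v))) v :=
    (hasStrictDerivAt_pow 3 ‖v‖).comp_hasStrictFDerivAt v h3 |>.congr_fderiv (by simp)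
  have h5 := (hasStrictDerivAt_inv (pow_ne_zero 3 hn)).comp_hasStrictFDerivAt v h4
  have h6 := h5.smul (hasStrictFDerivAt_id (𝕜 := ℝ) v)
  refine h6.congr_fderiv ?_
  refine ContinuousLinearMap.ext fun h => ?_
  rw [dForce_apply, Real.sqrt_sq (norm_nonneg _)]
  simp only [add_apply, smul_apply,
    ContinuousLinearMap.smulRight_apply, ContinuousLinearMap.id_apply, innerSL_apply_apply,
    Function.comp_apply, id_eq]
  congr 2
  simp only [nsmul_eq_mul, smul_eq_mul]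
  field_simp
  push_cast
  ring

/-- A global tangent lower bound for the inverse norm. -/
theorem inv_norm_add_ge (v h : F) (hv : v ≠ 0) (hvh : v + h ≠ 0) :
    ‖v‖⁻¹ - ⟪force v, h⟫ - ‖h‖ ^ 2 / (2 * ‖v‖ ^ 3) ≤ ‖v + h‖⁻¹ := by
  have hn : 0 < ‖v‖ := norm_pos_iff.mpr hv
  have ha : 0 < ‖v + h‖ := norm_pos_iff.mpr hvh
  have hsq : 2 * ⟪v, h⟫ + ‖h‖ ^ 2 = ‖v + h‖ ^ 2 - ‖v‖ ^ 2 := by
    rw [norm_add_sq_real]; ring
  have hf : ⟪force v, h⟫ = (‖v‖ ^ 3)⁻¹ * ⟪v, h⟫ := by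
    simp [force, real_inner_smul_left]
  generalize ⟪v, h⟫ = t at *
  generalize ‖v + h‖ = a at *
  generalize ‖v‖ = n at *
  generalize ‖h‖ ^ 2 = q at *
  generalize ⟪force v, h⟫ = f at *
  subst hf
  have hkey : a⁻¹ - (n⁻¹ - (n ^ 3)⁻¹ * t - q / (2 * n ^ 3))
      = (a - n) ^ 2 * (a + 2 * n) / (2 * a * n ^ 3) := by
    have hq : q = a ^ 2 - n ^ 2 - 2 * t := by linarith
    subst hq
    field_simp
    ring
  have hpos : 0 ≤ (a - n) ^ 2 * (a + 2 * n) / (2 * a * n ^ 3) := by positivity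
  linarith

/-- Version with a uniform constant for arguments of norm at least one half. -/
theorem inv_norm_add_ge_four (v h : F) (hv : (1 / 2 : ℝ) ≤ ‖v‖) (hvh : v + h ≠ 0) :
    ‖v‖⁻¹ - ⟪force v, h⟫ - 4 * ‖h‖ ^ 2 ≤ ‖v + h‖⁻¹ := by
  have hv0 : v ≠ 0 := by rintro rfl; norm_num at hv
  have hn : 0 < ‖v‖ := norm_pos_iff.mpr hv0
  have h8 : (1 / 8 : ℝ) ≤ ‖v‖ ^ 3 := by
    calc (1 / 8 : ℝ) = (1 / 2) ^ 3 := by norm_num
      _ ≤ ‖v‖ ^ 3 := pow_le_pow_left₀ (by norm_num) hv 3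
  have hb : ‖h‖ ^ 2 / (2 * ‖v‖ ^ 3) ≤ 4 * ‖h‖ ^ 2 := by
    rw [div_le_iff₀ (by positivity)]
    nlinarith [sq_nonneg ‖h‖]
  linarith [inv_norm_add_ge v h hv0 hvh]

/-- The Coulomb cost as a real number, for distinct points. -/
noncomputable def realCost (x y z : F) : ℝ := ‖x - y‖⁻¹ + ‖x - z‖⁻¹ + ‖y - z‖⁻¹

/-- The potential near the origin. -/
noncomputable def potA (x : F) : ℝ := 5 / 2 - 20 * ‖x‖ ^ 2

/-- The potential near `-e`. -/
noncomputable def potC (e z : F) : ℝ := 5 / 4 * ⟪e, z + e⟫ - 20 * ‖z + e‖ ^ 2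

/-- The two stationarity equations, in the first and the third variable. -/
def Stationary (e x y z : F) : Prop :=
  (40 : ℝ) • x - force (x - y) - force (x - z) = 0 ∧
  (40 : ℝ) • (z + e) - (5 / 4 : ℝ) • e - force (z - x) - force (z - y) = 0

/-- A stationary configuration is the strict global minimum in the first and third variable. -/
theorem stationary_min {e x y z : F} (hs : Stationary e x y z)
    (hxy : (1 / 2 : ℝ) ≤ ‖x - y‖) (hxz : (1 / 2 : ℝ) ≤ ‖x - z‖) (hzy : (1 / 2 : ℝ) ≤ ‖z - y‖)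
    (x' z' : F) (h1 : x' ≠ y) (h2 : x' ≠ z') (h3 : z' ≠ y) :
    realCost x y z - potA x - potC e z + 8 * (‖x' - x‖ ^ 2 + ‖z' - z‖ ^ 2)
      ≤ realCost x' y z' - potA x' - potC e z' := by
  set a := x' - x with ha
  set b := z' - z with hb
  have e1 : x' - y = (x - y) + a := by rw [ha]; abel
  have e2 : x' - z' = (x - z) + (a - b) := by rw [ha, hb]; abel
  have e3 : z' - y = (z - y) + b := by rw [hb]; abel
  have k1 := inv_norm_add_ge_four (x - y) a hxy (by rw [← e1]; exact sub_ne_zero.mpr h1)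
  have k2 := inv_norm_add_ge_four (x - z) (a - b) hxz (by rw [← e2]; exact sub_ne_zero.mpr h2)
  have k3 := inv_norm_add_ge_four (z - y) b hzy (by rw [← e3]; exact sub_ne_zero.mpr h3)
  rw [← e1] at k1
  rw [← e2] at k2
  rw [← e3] at k3
  have hab : ‖a - b‖ ^ 2 ≤ 2 * ‖a‖ ^ 2 + 2 * ‖b‖ ^ 2 := by
    have := parallelogram_law_with_norm ℝ a b
    nlinarith [sq_nonneg ‖a + b‖]
  have hA : potA x' = potA x - 40 * ⟪x, a⟫ - 20 * ‖a‖ ^ 2 := by
    have : x' = x + a := by rw [ha]; abel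
    simp only [potA, this, norm_add_sq_real]; ring
  have hC : potC e z' = potC e z + 5 / 4 * ⟪e, b⟫ - 40 * ⟪z + e, b⟫ - 20 * ‖b‖ ^ 2 := by
    have : z' + e = (z + e) + b := by rw [hb]; abel
    simp only [potC, this, norm_add_sq_real, inner_add_right]; ring
  have s1 := congrArg (fun w => ⟪w, a⟫) hs.1
  have s2 := congrArg (fun w => ⟪w, b⟫) hs.2
  have hneg : force (z - x) = -force (x - z) := by
    simp only [force, norm_sub_rev z x, ← smul_neg, neg_sub]
  simp only [inner_sub_left, real_inner_smul_left, inner_zero_left, hneg, inner_neg_left] at s1 s2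
  rw [inner_sub_right] at k2
  simp only [realCost, norm_sub_rev y z, norm_sub_rev y z']
  nlinarith

end Vale.Agent.P121
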