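import Vale.Agent.P121.Setup

/-!
Potentials on the five clusters and the classification of the contact triples.
-/

open scoped RealInnerProductSpace ENNReal
open Metric Set MeasureTheory

namespace Vale.Agent.P121

/-- Names of the five clusters. -/
abbrev Lab := Option (Fin 2 × Bool)

/-- Scaled lower bounds for the inverse distance of two clusters. -/
def wgt : Lab → Lab → ℕ
  | none, none => 5000
  | none, some _ => 98
  | some _, none => 98
  | some p, some q => if p = q then 5000 else if p.1 = q.1 then 49 else 69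

/-- Scaled upper bounds for the potential on a cluster. -/
def top : Lab → ℕ
  | none => 250
  | some _ => 2

/-- The six orderings of one branch. -/
def orderings {α : Type} (a b c : α) : List (α × α × α) :=
  [(a, b, c), (a, c, b), (b, a, c), (b, c, a), (c, a, b), (c, b, a)]

theorem label_dichotomy : ∀ k l m : Lab,
    top k + top l + top m < wgt k l + wgt k m + wgt l m ∨
      ∃ i : Fin 2, (k, l, m) ∈ orderings none (some (i, true)) (some (i, false)) := by
  decide

theorem inv_edist_ge {P Q : E3} {D : ℝ} (hD : 0 < D) (h : dist P Q ≤ D) :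
    ENNReal.ofReal D⁻¹ ≤ (edist P Q)⁻¹ := by
  rw [ENNReal.ofReal_inv_of_pos hD, ENNReal.inv_le_inv, edist_dist]
  exact ENNReal.ofReal_le_ofReal h

theorem coulombCost_eq_ofReal {P Q R : E3} (h1 : P ≠ Q) (h2 : P ≠ R) (h3 : Q ≠ R) :
    coulombCost (P, Q, R) = ENNReal.ofReal (realCost P Q R) := by
  have e : ∀ {U V : E3}, U ≠ V → (edist U V)⁻¹ = ENNReal.ofReal ‖U - V‖⁻¹ := fun {U V} h => by
    rw [edist_dist, ENNReal.ofReal_inv_of_pos (norm_pos_iff.mpr (sub_ne_zero.mpr h)),
      dist_eq_norm]
  simp only [coulombCost, e h1, e h2, e h3]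
  rw [← ENNReal.ofReal_add (by positivity) (by positivity),
    ← ENNReal.ofReal_add (by positivity) (by positivity)]
  rfl

theorem measurable_coulombCost : Measurable coulombCost := by
  unfold coulombCost
  fun_prop

theorem coulombCost_perm (P Q R : E3) :
    coulombCost (P, R, Q) = coulombCost (P, Q, R) ∧
    coulombCost (Q, P, R) = coulombCost (P, Q, R) ∧
    coulombCost (Q, R, P) = coulombCost (P, Q, R) ∧
    coulombCost (R, P, Q) = coulombCost (P, Q, R) ∧
    coulombCost (R, Q, P) = coulombCost (P, Q, R) := by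
  refine ⟨?_, ?_, ?_, ?_, ?_⟩ <;>
    simp only [coulombCost, edist_comm Q P, edist_comm R P, edist_comm R Q] <;> ring

namespace Clusters

variable (S : Clusters)

/-- The central ball. -/
def A : Set E3 := closedBall 0 S.r

/-- The center of a cluster. -/
def center : Lab → E3
  | none => 0
  | some (i, true) => S.e i
  | some (i, false) => -S.e i

/-- Parametrization of a cluster by the central ball. -/
def point : Lab → E3 → E3
  | none => id
  | some (i, true) => S.y i
  | some (i, false) => S.z i

/-- The potential, pulled back to the central ball. -/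
noncomputable def pot : Lab → E3 → ℝ
  | none => potA
  | some (i, true) => fun a => realCost a (S.y i a) (S.z i a) - potA a - potC (S.e i) (S.z i a)
  | some (i, false) => fun a => potC (S.e i) (S.z i a)

theorem measurableSet_A : MeasurableSet S.A := measurableSet_closedBall

theorem point_meas (k : Lab) : Measurable (S.point k) := by
  rcases k with _ | ⟨i, _ | _⟩
  · exact measurable_id
  · exact S.z_meas i
  · exact S.y_meas i

theorem point_cont (k : Lab) : ContinuousOn (S.point k) S.A := by
  rcases k with _ | ⟨i, _ | _⟩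
  · exact continuousOn_id
  · exact S.z_cont i
  · exact S.y_cont i

theorem point_anti (k : Lab) {a b : E3} (ha : a ∈ S.A) (hb : b ∈ S.A) :
    dist a b ≤ (max 1 S.K : NNReal) * dist (S.point k a) (S.point k b) := by
  rcases k with _ | ⟨i, _ | _⟩
  · refine le_mul_of_one_le_left dist_nonneg ?_
    exact_mod_cast le_max_left _ _
  · refine (S.z_anti i a ha b hb).trans ?_
    gcongr
    · exact le_max_right _ _
    · rfl
  · refine (S.y_anti i a ha b hb).trans ?_
    gcongr
    · exact le_max_right _ _
    · rfl

theorem point_injOn (k : Lab) : InjOn (S.point k) S.A := by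
  intro a ha b hb h
  have := S.point_anti k ha hb
  rw [h, dist_self, mul_zero] at this
  exact dist_le_zero.mp this

theorem point_near (k : Lab) {a : E3} (ha : a ∈ S.A) :
    ‖S.point k a - S.center k‖ ≤ 1 / 100 := by
  rcases k with _ | ⟨i, _ | _⟩
  · have : ‖a‖ ≤ S.r := by simpa [A] using ha
    simpa [point, center] using this.trans S.r_le
  · simpa [point, center] using S.z_near i a ha
  · exact S.y_near i a ha

theorem e_norm (i : Fin 2) : ‖S.e i‖ = 1 := S.e_orth.1 i

theorem e_inner {i j : Fin 2} (h : i ≠ j) : ⟪S.e i, S.e j⟫ = 0 := S.e_orth.2 h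

theorem center_dist (k l : Lab) :
    (‖S.center k - S.center l‖ + 1 / 50) * wgt k l ≤ 100 := by
  have hsq : ∀ i j : Fin 2, i ≠ j →
      ‖S.e i - S.e j‖ ≤ 71 / 50 ∧ ‖S.e i + S.e j‖ ≤ 71 / 50 := by
    intro i j h
    constructor
    · have := norm_sub_sq_real (S.e i) (S.e j)
      rw [S.e_inner h, S.e_norm, S.e_norm] at this
      nlinarith [norm_nonneg (S.e i - S.e j)]
    · have := norm_add_sq_real (S.e i) (S.e j)
      rw [S.e_inner h, S.e_norm, S.e_norm] at this
      nlinarith [norm_nonneg (S.e i + S.e j)]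
  rcases k with _ | ⟨i, s⟩ <;> rcases l with _ | ⟨j, t⟩
  · simp [center, wgt]; norm_num
  · cases t <;> simp [center, wgt, S.e_norm] <;> norm_num
  · cases s <;> simp [center, wgt, S.e_norm] <;> norm_num
  · by_cases hij : i = j
    · subst hij
      have h2 : ‖S.e i + S.e i‖ = 2 := by
        rw [show S.e i + S.e i = (2 : ℝ) • S.e i by module, norm_smul, S.e_norm]; norm_num
      have h2' : ‖-S.e i - S.e i‖ = 2 := by
        rw [show -S.e i - S.e i = -(S.e i + S.e i) by abel, norm_neg, h2]
      cases s <;> cases t <;> simp [center, wgt, h2, h2'] <;> norm_num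
    · obtain ⟨g1, g2⟩ := hsq i j hij
      have hw : (wgt (some (i, s)) (some (j, t)) : ℝ) = 69 := by simp [wgt, hij]
      have hn : ‖S.center (some (i, s)) - S.center (some (j, t))‖ ≤ 71 / 50 := by
        cases s <;> cases t <;> simp only [center]
        · rw [show -S.e i - -S.e j = -(S.e i - S.e j) by abel, norm_neg]; exact g1
        · rw [show -S.e i - S.e j = -(S.e i + S.e j) by abel, norm_neg]; exact g2
        · rw [sub_neg_eq_add]; exact g2
        · exact g1
      rw [hw]
      linarith

theorem inv_edist_point (k l : Lab) {a b : E3} (ha : a ∈ S.A) (hb : b ∈ S.A) :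
    ENNReal.ofReal ((wgt k l : ℝ) / 100) ≤ (edist (S.point k a) (S.point l b))⁻¹ := by
  have hd : dist (S.point k a) (S.point l b) ≤ ‖S.center k - S.center l‖ + 1 / 50 := by
    have h1 : S.point k a - S.point l b = (S.point k a - S.center k)
        + (S.center k - S.center l) + -(S.point l b - S.center l) := by abel
    rw [dist_eq_norm, h1]
    refine (norm_add₃_le).trans ?_
    rw [norm_neg]
    linarith [S.point_near k ha, S.point_near l hb]
  have hpos : 0 < ‖S.center k - S.center l‖ + 1 / 50 := by positivity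
  refine le_trans (ENNReal.ofReal_le_ofReal ?_) (inv_edist_ge hpos hd)
  rw [inv_eq_one_div, le_div_iff₀ hpos]
  linarith [S.center_dist k l]

theorem pot_le (k : Lab) {a : E3} (ha : a ∈ S.A) : S.pot k a ≤ (top k : ℝ) / 100 := by
  rcases k with _ | ⟨i, _ | _⟩
  · simp only [pot, potA, top]
    push_cast
    nlinarith [sq_nonneg ‖a‖]
  · simp only [pot, potC, top]
    push_cast
    have h := S.z_near i a ha
    have := real_inner_le_norm (S.e i) (S.z i a + S.e i)
    rw [S.e_norm] at this
    nlinarith [sq_nonneg ‖S.z i a + S.e i‖]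
  · simp only [pot, top]
    push_cast
    linarith [(abs_le.mp (S.potB_small i a ha)).2]

theorem pot_ge (k : Lab) {a : E3} (ha : a ∈ S.A) : -10 ≤ S.pot k a := by
  rcases k with _ | ⟨i, _ | _⟩
  · have h : ‖a‖ ≤ 1 / 100 := by
      simpa [point, center] using S.point_near none ha
    simp only [pot, potA]
    nlinarith [norm_nonneg a]
  · simp only [pot, potC]
    have h := S.z_near i a ha
    have := neg_le_of_abs_le (abs_real_inner_le_norm (S.e i) (S.z i a + S.e i))
    rw [S.e_norm] at this
    nlinarith [norm_nonneg (S.z i a + S.e i)]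
  · simp only [pot]
    linarith [(abs_le.mp (S.potB_small i a ha)).1]

theorem point_ne {k l : Lab} (h : k ≠ l) {a b : E3} (ha : a ∈ S.A) (hb : b ∈ S.A) :
    1 / 2 ≤ ‖S.point k a - S.point l b‖ := by
  have hc : 1 ≤ ‖S.center k - S.center l‖ := by
    rcases k with _ | ⟨i, s⟩ <;> rcases l with _ | ⟨j, t⟩
    · exact absurd rfl h
    · cases t <;> simp [center, S.e_norm]
    · cases s <;> simp [center, S.e_norm]
    · have he : ⟪S.center (some (i, s)), S.center (some (j, t))⟫ ≤ 0 := by
        by_cases hij : i = j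
        · subst hij
          have : s ≠ t := fun e => h (by rw [e])
          cases s <;> cases t <;> simp_all [center]
        · cases s <;> cases t <;> simp [center, S.e_inner hij]
      have := norm_sub_sq_real (S.center (some (i, s))) (S.center (some (j, t)))
      have hn : ∀ m (u : Bool), ‖S.center (some (m, u))‖ = 1 := by
        intro m u; cases u <;> simp [center, S.e_norm]
      rw [hn, hn] at this
      nlinarith [norm_nonneg (S.center (some (i, s)) - S.center (some (j, t)))]
  have h1 := norm_add₃_le (a := S.center k - S.point k a)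
    (b := S.point k a - S.point l b) (c := S.point l b - S.center l)
  rw [show S.center k - S.point k a + (S.point k a - S.point l b)
      + (S.point l b - S.center l) = S.center k - S.center l by abel,
    norm_sub_rev (S.center k) (S.point k a)] at h1
  linarith [S.point_near k ha, S.point_near l hb]

/-- The image of the central ball. -/
def region (k : Lab) : Set E3 := S.point k '' S.A

theorem measurableSet_region (k : Lab) : MeasurableSet (S.region k) :=
  S.measurableSet_A.image_of_continuousOn_injOn (S.point_cont k) (S.point_injOn k)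

/-- The measurable left inverse of a parametrization. -/
noncomputable def back (k : Lab) : E3 → E3 :=
  Function.extend (S.A.domRestrict (S.point k)) Subtype.val (fun _ => 0)

theorem back_meas (k : Lab) : Measurable (S.back k) :=
  (ContinuousOn.measurableEmbedding S.measurableSet_A (S.point_cont k)
    (S.point_injOn k)).measurable_extend measurable_subtype_coe measurable_const

theorem back_point (k : Lab) {a : E3} (ha : a ∈ S.A) : S.back k (S.point k a) = a :=
  (S.point_injOn k).injective.extend_apply Subtype.val (fun _ => (0 : E3)) ⟨a, ha⟩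

theorem pot_meas (k : Lab) : Measurable (S.pot k) := by
  rcases k with _ | ⟨i, _ | _⟩
  · show Measurable potA
    unfold potA; fun_prop
  · have := S.z_meas i
    show Measurable (fun a => potC (S.e i) (S.z i a))
    unfold potC; fun_prop
  · have := S.z_meas i
    have := S.y_meas i
    show Measurable (fun a => realCost a (S.y i a) (S.z i a) - potA a - potC (S.e i) (S.z i a))
    unfold realCost potA potC; fun_prop

theorem region_inj {k l : Lab} {a b : E3} (ha : a ∈ S.A) (hb : b ∈ S.A)
    (h : S.point k a = S.point l b) : k = l := by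
  by_contra hkl
  have := S.point_ne hkl ha hb
  rw [h, sub_self, norm_zero] at this
  norm_num at this

theorem mem_region_iff {k l : Lab} {a : E3} (ha : a ∈ S.A) :
    S.point k a ∈ S.region l ↔ k = l := by
  constructor
  · rintro ⟨b, hb, h⟩; exact S.region_inj ha hb h.symm
  · rintro rfl; exact ⟨a, ha, rfl⟩

/-- The shifted potential on the whole space. -/
noncomputable def vpot (p : E3) : ℝ≥0∞ :=
  ∑ k : Lab, (S.region k).indicator (fun q => ENNReal.ofReal (S.pot k (S.back k q) + 10)) p

theorem vpot_meas : Measurable S.vpot := by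
  unfold vpot
  refine Finset.measurable_sum _ fun k _ => Measurable.indicator ?_ (S.measurableSet_region k)
  exact (((S.pot_meas k).comp (S.back_meas k)).add_const _).ennreal_ofReal

theorem vpot_point (k : Lab) {a : E3} (ha : a ∈ S.A) :
    S.vpot (S.point k a) = ENNReal.ofReal (S.pot k a + 10) := by
  unfold vpot
  rw [Finset.sum_eq_single k]
  · rw [indicator_of_mem ((S.mem_region_iff ha).2 rfl), S.back_point k ha]
  · intro l _ hl
    exact indicator_of_notMem (fun h => hl ((S.mem_region_iff ha).1 h).symm) _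
  · simp

theorem vsum_point (k l m : Lab) {a b c : E3} (ha : a ∈ S.A) (hb : b ∈ S.A) (hc : c ∈ S.A) :
    S.vpot (S.point k a) + S.vpot (S.point l b) + S.vpot (S.point m c)
      = ENNReal.ofReal (S.pot k a + S.pot l b + S.pot m c + 30) := by
  have := S.pot_ge k ha
  have := S.pot_ge l hb
  have := S.pot_ge m hc
  rw [S.vpot_point k ha, S.vpot_point l hb, S.vpot_point m hc,
    ← ENNReal.ofReal_add (by linarith) (by linarith),
    ← ENNReal.ofReal_add (by linarith) (by linarith)]
  congr 1
  ring

/-- Away from the two branches the inequality is strict. -/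
theorem strict_of_lt (k l m : Lab) (h : top k + top l + top m < wgt k l + wgt k m + wgt l m)
    {a b c : E3} (ha : a ∈ S.A) (hb : b ∈ S.A) (hc : c ∈ S.A) :
    S.vpot (S.point k a) + S.vpot (S.point l b) + S.vpot (S.point m c)
      < coulombCost (S.point k a, S.point l b, S.point m c) + 30 := by
  rw [S.vsum_point k l m ha hb hc]
  have hcost : ENNReal.ofReal (((wgt k l + wgt k m + wgt l m : ℕ) : ℝ) / 100) + 30
      ≤ coulombCost (S.point k a, S.point l b, S.point m c) + 30 := by
    gcongr
    rw [coulombCost]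
    push_cast
    rw [add_div, add_div, ENNReal.ofReal_add (by positivity) (by positivity),
      ENNReal.ofReal_add (by positivity) (by positivity)]
    exact add_le_add (add_le_add (S.inv_edist_point k l ha hb) (S.inv_edist_point k m ha hc))
      (S.inv_edist_point l m hb hc)
  refine lt_of_lt_of_le ?_ hcost
  rw [show (30 : ℝ≥0∞) = ENNReal.ofReal 30 by simp,
    ← ENNReal.ofReal_add (by positivity) (by norm_num)]
  refine ENNReal.ofReal_lt_ofReal_iff_of_nonneg ?_ |>.mpr ?_
  · linarith [S.pot_ge k ha, S.pot_ge l hb, S.pot_ge m hc]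
  · have : ((top k + top l + top m : ℕ) : ℝ) < ((wgt k l + wgt k m + wgt l m : ℕ) : ℝ) :=
      Nat.cast_lt.mpr h
    push_cast at this ⊢
    linarith [S.pot_le k ha, S.pot_le l hb, S.pot_le m hc]

/-- The second point of a branch. -/
def Y (i : Fin 2) : Lab := some (i, true)

/-- The third point of a branch. -/
def Z (i : Fin 2) : Lab := some (i, false)

/-- The inequality on a branch, with its equality case. -/
theorem branch_ineq (i : Fin 2) {a b c : E3} (ha : a ∈ S.A) (hb : b ∈ S.A) (hc : c ∈ S.A) :
    S.vpot a + S.vpot (S.y i b) + S.vpot (S.z i c) ≤ coulombCost (a, S.y i b, S.z i c) + 30 ∧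
    (S.vpot a + S.vpot (S.y i b) + S.vpot (S.z i c) = coulombCost (a, S.y i b, S.z i c) + 30 ↔
      b = a ∧ c = a) := by
  have hv : S.vpot a + S.vpot (S.y i b) + S.vpot (S.z i c)
      = ENNReal.ofReal (S.pot none a + S.pot (some (i, true)) b + S.pot (some (i, false)) c + 30) :=
    S.vsum_point none (some (i, true)) (some (i, false)) ha hb hc
  have d1 : (1 / 2 : ℝ) ≤ ‖a - S.y i b‖ :=
    S.point_ne (k := none) (l := some (i, true)) (by simp) ha hb
  have d2 : (1 / 2 : ℝ) ≤ ‖a - S.z i c‖ :=
    S.point_ne (k := none) (l := some (i, false)) (by simp) ha hc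
  have d3 : (1 / 2 : ℝ) ≤ ‖S.z i c - S.y i b‖ :=
    S.point_ne (k := some (i, false)) (l := some (i, true)) (by simp) hc hb
  have f1 : (1 / 2 : ℝ) ≤ ‖b - S.y i b‖ :=
    S.point_ne (k := none) (l := some (i, true)) (by simp) hb hb
  have f2 : (1 / 2 : ℝ) ≤ ‖b - S.z i b‖ :=
    S.point_ne (k := none) (l := some (i, false)) (by simp) hb hb
  have f3 : (1 / 2 : ℝ) ≤ ‖S.z i b - S.y i b‖ :=
    S.point_ne (k := some (i, false)) (l := some (i, true)) (by simp) hb hb
  have ne : ∀ {U V : E3}, (1 / 2 : ℝ) ≤ ‖U - V‖ → U ≠ V := fun {U V} h e => by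
    rw [e, sub_self, norm_zero] at h; norm_num at h
  have hmin := stationary_min (S.stat i b hb) f1 f2 f3 a (S.z i c) (ne d1) (ne d2) (ne d3)
  have hnn : 0 ≤ realCost a (S.y i b) (S.z i c) := by unfold realCost; positivity
  rw [hv, coulombCost_eq_ofReal (ne d1) (ne d2) (ne d3).symm,
    show (30 : ℝ≥0∞) = ENNReal.ofReal 30 by simp, ← ENNReal.ofReal_add hnn (by norm_num)]
  have q0 : (0 : ℝ) ≤ 8 * (‖a - b‖ ^ 2 + ‖S.z i c - S.z i b‖ ^ 2) := by positivity
  refine ⟨ENNReal.ofReal_le_ofReal (by simp only [pot]; linarith), ?_⟩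
  rw [ENNReal.ofReal_eq_ofReal_iff
    (by linarith [S.pot_ge none ha, S.pot_ge (some (i, true)) hb,
      S.pot_ge (some (i, false)) hc]) (by linarith)]
  constructor
  · intro h
    simp only [pot] at h
    have hz : ‖a - b‖ ^ 2 + ‖S.z i c - S.z i b‖ ^ 2 = 0 :=
      le_antisymm (by linarith) (by positivity)
    obtain ⟨u1, u2⟩ := (add_eq_zero_iff_of_nonneg (by positivity) (by positivity)).mp hz
    simp [sub_eq_zero] at u1 u2
    exact ⟨u1.symm, (S.point_injOn (some (i, false)) hc hb u2).trans u1.symm⟩
  · rintro ⟨rfl, rfl⟩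
    simp only [pot]
    ring

/-- The contact triples: orderings of a point of one of the two branches. -/
def Contact (p : E3 × E3 × E3) : Prop :=
  ∃ i, ∃ a ∈ S.A, p ∈ orderings a (S.y i a) (S.z i a)

/-- The union of the five clusters. -/
def support : Set E3 := ⋃ k, S.region k

theorem vsum_le {p q s : E3} (hp : p ∈ S.support) (hq : q ∈ S.support) (hs : s ∈ S.support) :
    S.vpot p + S.vpot q + S.vpot s ≤ coulombCost (p, q, s) + 30 ∧
    (S.vpot p + S.vpot q + S.vpot s = coulombCost (p, q, s) + 30 → S.Contact (p, q, s)) := by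
  simp only [support, mem_iUnion] at hp hq hs
  obtain ⟨k, a, ha, rfl⟩ := hp
  obtain ⟨l, b, hb, rfl⟩ := hq
  obtain ⟨m, c, hc, rfl⟩ := hs
  rcases label_dichotomy k l m with h | ⟨i, h⟩
  · have := S.strict_of_lt k l m h ha hb hc
    exact ⟨this.le, fun e => absurd e this.ne⟩
  · simp only [orderings, List.mem_cons, List.not_mem_nil, or_false, Prod.mk.injEq] at h
    rcases h with ⟨rfl, rfl, rfl⟩ | ⟨rfl, rfl, rfl⟩ | ⟨rfl, rfl, rfl⟩ | ⟨rfl, rfl, rfl⟩ |
      ⟨rfl, rfl, rfl⟩ | ⟨rfl, rfl, rfl⟩ <;> simp only [point, id]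
    · refine ⟨(S.branch_ineq i ha hb hc).1, fun e => ?_⟩
      obtain ⟨h1, h2⟩ := (S.branch_ineq i ha hb hc).2.mp e
      refine ⟨i, a, ha, ?_⟩
      simp [orderings, h1, h2]
    · rw [(coulombCost_perm a (S.y i c) (S.z i b)).1,
        show ∀ x y z : ℝ≥0∞, x + y + z = x + z + y from fun x y z => by ring]
      refine ⟨(S.branch_ineq i ha hc hb).1, fun e => ?_⟩
      obtain ⟨h1, h2⟩ := (S.branch_ineq i ha hc hb).2.mp e
      exact ⟨i, a, ha, by simp [orderings, h1, h2]⟩
    · rw [(coulombCost_perm b (S.y i a) (S.z i c)).2.1,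
        show ∀ x y z : ℝ≥0∞, x + y + z = y + x + z from fun x y z => by ring]
      refine ⟨(S.branch_ineq i hb ha hc).1, fun e => ?_⟩
      obtain ⟨h1, h2⟩ := (S.branch_ineq i hb ha hc).2.mp e
      exact ⟨i, b, hb, by simp [orderings, h1, h2]⟩
    · rw [(coulombCost_perm c (S.y i a) (S.z i b)).2.2.1,
        show ∀ x y z : ℝ≥0∞, x + y + z = z + x + y from fun x y z => by ring]
      refine ⟨(S.branch_ineq i hc ha hb).1, fun e => ?_⟩
      obtain ⟨h1, h2⟩ := (S.branch_ineq i hc ha hb).2.mp e
      exact ⟨i, c, hc, by simp [orderings, h1, h2]⟩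
    · rw [(coulombCost_perm b (S.y i c) (S.z i a)).2.2.2.1,
        show ∀ x y z : ℝ≥0∞, x + y + z = y + z + x from fun x y z => by ring]
      refine ⟨(S.branch_ineq i hb hc ha).1, fun e => ?_⟩
      obtain ⟨h1, h2⟩ := (S.branch_ineq i hb hc ha).2.mp e
      exact ⟨i, b, hb, by simp [orderings, h1, h2]⟩
    · rw [(coulombCost_perm c (S.y i b) (S.z i a)).2.2.2.2,
        show ∀ x y z : ℝ≥0∞, x + y + z = z + y + x from fun x y z => by ring]
      refine ⟨(S.branch_ineq i hc hb ha).1, fun e => ?_⟩
      obtain ⟨h1, h2⟩ := (S.branch_ineq i hc hb ha).2.mp e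
      exact ⟨i, c, hc, by simp [orderings, h1, h2]⟩

theorem vsum_contact {p : E3 × E3 × E3} (h : S.Contact p) :
    S.vpot p.1 + S.vpot p.2.1 + S.vpot p.2.2 = coulombCost p + 30 := by
  obtain ⟨i, a, ha, h⟩ := h
  have e := (S.branch_ineq i ha ha ha).2.mpr ⟨rfl, rfl⟩
  have P := coulombCost_perm a (S.y i a) (S.z i a)
  simp only [orderings, List.mem_cons, List.not_mem_nil, or_false] at h
  rcases h with rfl | rfl | rfl | rfl | rfl | rfl <;>
    simp only [P.1, P.2.1, P.2.2.1, P.2.2.2.1, P.2.2.2.2] <;> rw [← e] <;> ring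

end Clusters

end Vale.Agent.P121
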