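import Vale.Agent.P121.Branch

/-!
The five clusters, with their branches, and the choice of the common radius.
-/

open scoped RealInnerProductSpace NNReal Topology
open Metric Set Filter

namespace Vale.Agent.P121

/-- Five small clusters around `0`, `e i`, `-e i`, joined by two branches of stationary triples. -/
structure Clusters where
  /-- the two axes -/
  e : Fin 2 → E3
  e_orth : Orthonormal ℝ e
  /-- radius of the central cluster -/
  r : ℝ
  r_pos : 0 < r
  r_le : r ≤ 1 / 100
  /-- second components of the branches -/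
  y : Fin 2 → E3 → E3
  /-- third components of the branches -/
  z : Fin 2 → E3 → E3
  /-- Lipschitz constant of the inverses -/
  K : ℝ≥0
  y_meas : ∀ i, Measurable (y i)
  z_meas : ∀ i, Measurable (z i)
  y_cont : ∀ i, ContinuousOn (y i) (closedBall 0 r)
  z_cont : ∀ i, ContinuousOn (z i) (closedBall 0 r)
  y_anti : ∀ i, ∀ a ∈ closedBall (0 : E3) r, ∀ b ∈ closedBall (0 : E3) r,
    dist a b ≤ K * dist (y i a) (y i b)
  z_anti : ∀ i, ∀ a ∈ closedBall (0 : E3) r, ∀ b ∈ closedBall (0 : E3) r,
    dist a b ≤ K * dist (z i a) (z i b)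
  y_near : ∀ i, ∀ a ∈ closedBall (0 : E3) r, ‖y i a - e i‖ ≤ 1 / 100
  z_near : ∀ i, ∀ a ∈ closedBall (0 : E3) r, ‖z i a + e i‖ ≤ 1 / 100
  stat : ∀ i, ∀ a ∈ closedBall (0 : E3) r, Stationary (e i) a (y i a) (z i a)
  potB_small : ∀ i, ∀ a ∈ closedBall (0 : E3) r,
    |realCost a (y i a) (z i a) - potA a - potC (e i) (z i a)| ≤ 1 / 50

theorem exists_clusters : Nonempty Clusters := by
  obtain ⟨e, he⟩ : ∃ e : Fin 2 → E3, Orthonormal ℝ e :=
    ⟨_, (EuclideanSpace.basisFun (Fin 3) ℝ).orthonormal.comp ![(0 : Fin 3), 1]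
      (by decide)⟩
  choose y z K hy0 hz0 hev using fun i => exists_branch (e i) (he.1 i)
  have hev' : ∀ i, ∀ᶠ r in 𝓝[>] (0 : ℝ),
      (ContinuousOn (y i) (closedBall 0 r) ∧ ContinuousOn (z i) (closedBall 0 r) ∧
      ∀ x ∈ closedBall (0 : E3) r, Stationary (e i) x (y i x) (z i x) ∧
        ∀ x' ∈ closedBall (0 : E3) r, dist x x' ≤ (max (K 0) (K 1)) * dist (y i x) (y i x') ∧
          dist x x' ≤ (max (K 0) (K 1)) * dist (z i x) (z i x')) ∧
      ∀ x ∈ closedBall (0 : E3) r, ‖y i x - e i‖ ≤ 1 / 100 ∧ ‖z i x + e i‖ ≤ 1 / 100 ∧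
        |realCost x (y i x) (z i x) - potA x - potC (e i) (z i x)| ≤ 1 / 50 := by
    intro i
    have hKi : K i ≤ max (K 0) (K 1) := by
      fin_cases i
      · exact le_max_left _ _
      · exact le_max_right _ _
    refine Filter.Eventually.and ?_ ?_
    · filter_upwards [hev i] with r hr
      refine ⟨hr.1, hr.2.1, fun x hx => ⟨(hr.2.2 x hx).1, fun x' hx' => ⟨?_, ?_⟩⟩⟩
      · exact ((hr.2.2 x hx).2 x' hx').1.trans (by gcongr)
      · exact ((hr.2.2 x hx).2 x' hx').2.trans (by gcongr)
    · obtain ⟨ρ, hρ, hρ0⟩ := ((hev i).and self_mem_nhdsWithin).exists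
      have hyc : ContinuousAt (y i) 0 := hρ.1.continuousAt (closedBall_mem_nhds _ hρ0)
      have hzc : ContinuousAt (z i) 0 := hρ.2.1.continuousAt (closedBall_mem_nhds _ hρ0)
      have he1 : ‖e i‖ = 1 := he.1 i
      have he0 : e i ≠ 0 := fun h => by simp [h] at he1
      have h2 : ‖e i + e i‖ = 2 := by
        rw [show e i + e i = (2 : ℝ) • e i by module, norm_smul, he1]; norm_num
      have h3 : e i + e i ≠ 0 := fun h => by simp [h] at h2
      have l1 : Tendsto (fun x => ‖y i x - e i‖) (𝓝 0) (𝓝 0) := by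
        simpa [hy0 i] using (hyc.sub (continuousAt_const (y := e i))).norm.tendsto (x := (0 : E3))
      have l2 : Tendsto (fun x => ‖z i x + e i‖) (𝓝 0) (𝓝 0) := by
        simpa [hz0 i] using (hzc.add (continuousAt_const (y := e i))).norm.tendsto (x := (0 : E3))
      have c3 : ContinuousAt
          (fun x => |realCost x (y i x) (z i x) - potA x - potC (e i) (z i x)|) 0 := by
        unfold realCost potA potC
        fun_prop (disch := simp [hy0 i, hz0 i, he0, h3])
      have l3 : Tendsto (fun x => |realCost x (y i x) (z i x) - potA x - potC (e i) (z i x)|)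
          (𝓝 0) (𝓝 0) := by
        have := c3.tendsto
        simp [hy0 i, hz0 i, realCost, potA, potC, h2, he1] at this ⊢
        norm_num [h2] at this
        exact this
      have hn : ∀ᶠ x in 𝓝 (0 : E3), ‖y i x - e i‖ ≤ 1 / 100 ∧ ‖z i x + e i‖ ≤ 1 / 100 ∧
          |realCost x (y i x) (z i x) - potA x - potC (e i) (z i x)| ≤ 1 / 50 := by
        filter_upwards [l1.eventually (Iic_mem_nhds (by norm_num : (0 : ℝ) < 1 / 100)),
          l2.eventually (Iic_mem_nhds (by norm_num : (0 : ℝ) < 1 / 100)),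
          l3.eventually (Iic_mem_nhds (by norm_num : (0 : ℝ) < 1 / 50))] with x a b c
        exact ⟨a, b, c⟩
      obtain ⟨σ, hσ, hball⟩ := nhds_basis_closedBall.mem_iff.mp hn
      filter_upwards [nhdsWithin_le_nhds (Iic_mem_nhds hσ)] with r hr x hx
      exact hball (closedBall_subset_closedBall hr hx)
  obtain ⟨r, H, hrle, hr⟩ := ((Filter.eventually_all.mpr hev').and
    ((eventually_le_nhds (by norm_num : (0 : ℝ) < 1 / 100)).filter_mono nhdsWithin_le_nhds
      |>.and self_mem_nhdsWithin)).exists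
  classical
  have pw : ∀ (f : E3 → E3), ContinuousOn f (closedBall 0 r) →
      Measurable ((closedBall (0 : E3) r).piecewise f (fun _ => 0)) := fun f hf =>
    hf.measurable_piecewise continuousOn_const measurableSet_closedBall
  have eqy : ∀ (f : E3 → E3) {a : E3}, a ∈ closedBall (0 : E3) r →
      (closedBall (0 : E3) r).piecewise f (fun _ => 0) a = f a := fun f a ha =>
    piecewise_eq_of_mem _ _ _ ha
  exact ⟨{
    e := e
    e_orth := he
    r := r
    r_pos := hr
    r_le := hrle
    y := fun i => (closedBall (0 : E3) r).piecewise (y i) (fun _ => 0)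
    z := fun i => (closedBall (0 : E3) r).piecewise (z i) (fun _ => 0)
    K := max (K 0) (K 1)
    y_meas := fun i => pw _ (H i).1.1
    z_meas := fun i => pw _ (H i).1.2.1
    y_cont := fun i => (H i).1.1.congr fun a ha => eqy _ ha
    z_cont := fun i => (H i).1.2.1.congr fun a ha => eqy _ ha
    y_anti := fun i a ha b hb => by
      rw [eqy _ ha, eqy _ hb]; exact (((H i).1.2.2 a ha).2 b hb).1
    z_anti := fun i a ha b hb => by
      rw [eqy _ ha, eqy _ hb]; exact (((H i).1.2.2 a ha).2 b hb).2
    y_near := fun i a ha => by rw [eqy _ ha]; exact ((H i).2 a ha).1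
    z_near := fun i a ha => by rw [eqy _ ha]; exact ((H i).2 a ha).2.1
    stat := fun i a ha => by simp only [eqy _ ha]; exact ((H i).1.2.2 a ha).1
    potB_small := fun i a ha => by simp only [eqy _ ha]; exact ((H i).2 a ha).2.2 }⟩

end Vale.Agent.P121
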